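import Crest.Agent.X262.Vb.Defs
import Crest.Agent.X262.Vb.Bas0
import Crest.Agent.X262.Hb.Sat2
import Crest.Agent.X262.Node22.Gau

/-!
# Row 262, road B (helper64): the class of the diagonal is natural

* `cT_eq`  : the tangent bundle inside the bundle of minors; `cT_scl`, `cT_red`, `coeff_cT_*`;
* `pb_dh`  : the pull-back of the divisor of the ideal of the diagonal; `root`;
* `dgcP`   : `dgc` is a class on the square of the target.
-/

set_option autoImplicit false
set_option linter.unusedSectionVars false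

noncomputable section

namespace Crest.Agent.X262.Dgc64

open Crest.Agent.X277 Crest.Agent.X277.BD Crest.Agent.X262.Hb Crest.Agent.X262.Vb Module
open Crest.Agent.X262.Node22 (vec scl vsc wg dl da TY Par Dg gD wg_apply vsc_apply mem_TY)

variable {J : Type} [Fintype J] [DecidableEq J] {io : J → Type} [∀ j, Fintype (io j)]
  [∀ j, DecidableEq (io j)] {A : Type} [Fintype A] {K E : Type} [Field K] [Algebra ℂ K]
  [Field E] [Algebra ℂ E] {y y' : Pnt io K} {T : Tgt io A} {B : Th} {c : ℕ}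

theorem mem_eul {τ : Vr io → K} : τ ∈ eul y ↔ ∃ l : J → K, τ = vsc l (vec y) := by
  rw [eul, Submodule.mem_span_range_iff_exists_fun]
  refine exists_congr fun l => eq_comm.trans (Iff.of_eq (congrArg _ (funext fun v => ?_)))
  simp [Finset.sum_apply, vec]

theorem mem_eul' (h : Par y y') {τ : Vr io → K} :
    τ ∈ eul y ↔ ∃ l : J → K, τ = vsc l (vec y') := by
  obtain ⟨c, hc, rfl⟩ := h
  rw [mem_eul]
  constructor <;> rintro ⟨l, rfl⟩
  · exact ⟨l * c, funext fun v => by simp [Node22.vec_scl, mul_assoc]⟩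
  · exact ⟨l / c, funext fun v => by simp [Node22.vec_scl, ← mul_assoc, hc v.1]⟩

theorem eul_le (hO : T.On y) : eul y ≤ LinearMap.ker (T.jac y) := fun _ h => by
  obtain ⟨l, rfl⟩ := mem_eul.1 h
  exact Node22.jac_euler T hO l

/-- the distance to the Euler vectors is the size of the minors -/
theorem ds_eul (h : Par y y') (h' : NZ y') (V : RZ ℂ K) (τ : Vr io → K) :
    nm (da y y') V (wg τ (vec y')) = ds (fun v : Vr io => ln y v.1) V (eul y) τ := by
  refine le_antisymm (le_ds.2 fun w hw => ?_) (ds_le_iff.2 ?_)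
  · obtain ⟨l, rfl⟩ := (mem_eul' h).1 hw
    rw [← Node22.wg_sub_vsc τ l]
    have key : ∀ (j : J) (i i' : io j), V.v ((τ - vsc l (vec y')) ⟨j, i⟩ * vec y' ⟨j, i'⟩) ≤
        nm (fun v : Vr io => ln y v.1) V (τ - vsc l (vec y')) * (ln y j + ln y' j).val V :=
      fun j i i' => by
        rw [map_mul, val_add, ← mul_assoc]
        exact mul_le_mul' (le_nm (fun v : Vr io => ln y v.1) V _ ⟨j, i⟩) (le_ln y' j i' V)
    exact nm_le.2 fun x => (V.v.map_sub _ _).trans (max_le (key _ _ _) (key _ _ _))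
  · choose i hi using fun j => exists_ln h' j V
    have h0 : ∀ j, y' j (i j) ≠ 0 := fun j => RZ.ne_zero_iff.1 (hi j ▸ val_ne _ _)
    refine ⟨_, (mem_eul' h).2 ⟨fun j => τ ⟨j, i j⟩ / y' j (i j), rfl⟩, nm_le.2 fun v => ?_⟩
    have e : (τ - vsc (fun j => τ ⟨j, i j⟩ / y' j (i j)) (vec y')) v =
        wg τ (vec y') ⟨v.1, v.2, i v.1⟩ / y' v.1 (i v.1) := by
      have := h0 v.1
      simp only [Pi.sub_apply, vsc_apply, wg_apply, vec]
      field_simp
    rw [e, map_div₀, hi, div_le_iff₀ (val_pos _ _), mul_assoc, ← val_add]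
    exact le_nm (da y y') V _ ⟨v.1, v.2, i v.1⟩

theorem da_scl (h : NZ y) (h' : NZ y') {g g' : J → K} (hg : ∀ j, g j ≠ 0) (hg' : ∀ j, g' j ≠ 0)
    (x : Dg io) : da (scl g y) (scl g' y') x = da y y' x + pr ℂ (gD g g' x) := by
  rw [da, da, ln_scl h hg, ln_scl h' hg', gD, pr_mul (hg _) (hg' _), add_add_add_comm]

theorem val_da {V : RZ ℂ K} (h : Prim V y) (h' : Prim V y') (x : Dg io) :
    (da y y' x).val V = 1 := by rw [da, val_add, h.val_ln, h'.val_ln, one_mul]

theorem res_da {p : LP K E} (h : Prim p.V y) (h' : Prim p.V y') :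
    (fun x => p.res (da y y' x)) = da (redP p.toPl y) (redP p.toPl y') := funext fun x => by
  rw [da, da, ln_red h, ln_red h', Pl.res_add (h.val_ln _) (h'.val_ln _)]

theorem dh_eq (y y' : Pnt io K) : dh y y' = -sz (dl y y') (da y y') := rfl

theorem wdg_eq (y y' : Pnt io K) : wdg y y' = dl y y' := rfl

theorem dh_scl (h : NZ y) (h' : NZ y') {g g' : J → K} (hg : ∀ j, g j ≠ 0) (hg' : ∀ j, g' j ≠ 0) :
    dh (scl g y) (scl g' y') = dh y y' := by
  rw [dh_eq, dh_eq, funext (Node22.dl_scl g g' y y'), funext (da_scl h h' hg hg'),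
    sz_scl (Node22.gD_ne hg hg')]

theorem wdg_scl {g g' : J → K} (hg : ∀ j, g j ≠ 0) (hg' : ∀ j, g' j ≠ 0) :
    wdg (scl g y) (scl g' y') = 0 ↔ wdg y y' = 0 := by
  simp only [wdg_eq, funext_iff, Node22.dl_scl, Pi.zero_apply, mul_eq_zero, Node22.gD_ne hg hg',
    false_or]

theorem rv_dl {p : LP K E} (h : Prim p.V y) (h' : Prim p.V y') :
    rv p (dl y y') = dl (redP p.toPl y) (redP p.toPl y') :=
  Node22.r_wg (Node22.Prim.int h) (Node22.Prim.int h')

/-- the direction in which two points of the target meet is tangent to the target -/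
theorem dir_mem {p : LP K E} (h : Prim p.V y) (h' : Prim p.V y') (hO : T.On y) (hO' : T.On y')
    {u : K} (hu : 1 < p.V.v u) (hi : Itg p (u • dl y y')) :
    rv p (u • dl y y') ∈ TY T (redP p.toPl y) (redP p.toPl y') := by
  let z : Cfg io Bool K := ⟨fun b => cond b y y', fun _ => ⊥⟩
  have h0 : ∀ x, z.sv T x = 0 := fun ⟨a, b⟩ => by
    cases b
    · exact hO' a
    · exact hO a
  have h1 : (fun x => p.r (u * z.sv T x)) = 0 := funext fun x => by
    rw [h0, mul_zero, Pl.r_zero, Pi.zero_apply]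
  have h2 := Node22.sd_mem_EE (T := T) (z := z) (q := true) (q' := false) p.lnr h h' hu
    (fun x => match x with
      | .inl x => by
        change u * z.sv T x ∈ _
        rw [h0, mul_zero]
        exact zero_mem _
      | .inr x => hi x) (h1 ▸ zero_mem _)
  obtain ⟨w, hw, e⟩ := Node22.ker_pl_EE.le ⟨h2, h1⟩
  rwa [show rv p (u • dl y y') = w from funext fun x => (congrFun e (.inr x)).symm]

theorem finrank_TY (hS : Smo T c) (h : Par y y') (h' : NZ y') (hO : T.On y) :
    finrank K (TY T y y') + c = adim io := by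
  obtain ⟨-, S, hS⟩ := hS
  obtain ⟨g, hg, e⟩ := id h
  rw [← (hS K y (e ▸ Node22.nz_scl h' hg) hO).1]
  exact Node22.finrank_TY T h h' hO

variable (hB : B.Ax)
include hB

/-- the pull-back of the class of the size of a vector -/
theorem pb_sz {P : Type} [Fintype P] (p : LP K E) {a : P → BD ℂ K} (ha : ∀ x, (a x).val p.V = 1)
    {u : P → K} {g : K} (h : nm a p.V (g • u) = 1) :
    B.pb p (B.c1 (sz u a)) = B.c1 (sz (rv p (g • u)) fun x => p.res (a x)) := by
  have h0 : g • u ≠ 0 := fun e => by simp [e] at h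
  have h1 : B.c1 (sz (g • u) a) = B.c1 (sz u a) := by
    rw [sz_smul (right_ne_zero_of_smul h0) (left_ne_zero_of_smul h0), map_add, hB.c1_pr, zero_add]
  rw [← h1, hB.pb_c1_res p (by rw [val_sz h0, h]), res_sz p.toPl ha h]
  rfl

theorem pb_dh {p : LP K E} (h : Prim p.V y) (h' : Prim p.V y')
    (h0 : wdg (redP p.toPl y) (redP p.toPl y') ≠ 0) :
    B.pb p (B.c1 (dh y y')) = B.c1 (dh (redP p.toPl y) (redP p.toPl y')) := by
  have hi : Itg p (dl y y') := Node22.wg_int (Node22.Prim.int h) (Node22.Prim.int h')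
  have h1 : nm (da y y') p.V ((1 : K) • dl y y') = 1 := by
    rw [one_smul]
    exact le_antisymm ((itg_iff (val_da h h')).1 hi) (not_lt.1 fun e =>
      h0 ((rv_dl h h').symm.trans ((rv_eq_zero (val_da h h') hi).2 e)))
  rw [dh_eq, dh_eq, map_neg, map_neg, map_neg, pb_sz hB p (val_da h h') h1, one_smul, rv_dl h h',
    res_da h h']

variable [Algebra.EssFiniteType ℂ K]

/-- the tangent bundle inside the bundle of minors -/
theorem cT_eq (h : Par y y') (h' : NZ y') (hO : T.On y) :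
    cT B T y = B.cp (da y y') (TY T y y') := by
  rw [show TY T y y' = (LinearMap.ker (T.jac y)).map (wg.flip (vec y')) from
    Submodule.ext fun _ => mem_TY T h, cT, ← hB.cp2_map (φ := wg.flip (vec y')) (a' := da y y')
      (W' := ⊥) (eul_le hO) fun V x _ => ds_bot.trans (ds_eul h h' V x), bot_sup_eq, Th.cp]

theorem cT_scl (h : NZ y) (hO : T.On y) {g : J → K} (hg : ∀ j, g j ≠ 0) :
    cT B T (scl g y) = cT B T y := by
  rw [cT_eq hB (.refl _) (Node22.nz_scl h hg) (Node22.on_scl T hO g), cT_eq hB (.refl _) h hO,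
    Node22.TY_scl T hg hg]
  exact hB.cp_dia (Node22.gD_ne hg hg) (da_scl h h hg hg) _

theorem coeff_cT_gt (hS : Smo T c) (h : NZ y) (hO : T.On y) {n k : ℕ} (hn : n + c = adim io)
    (hk : n < k) : (cT B T y).coeff k = 0 := by
  have := finrank_TY hS (.refl y) h hO
  rw [cT_eq hB (.refl _) h hO]
  exact hB.coeff_cp_gt (r := n) (by omega) hk

theorem coeff_cT_top (hS : Smo T c) (h : NZ y) (hO : T.On y) {n : ℕ} (hn : n + c = adim io) :
    (cT B T y).coeff n = (-1) ^ n := by
  have := finrank_TY hS (.refl y) h hO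
  rw [cT_eq hB (.refl _) h hO]
  exact hB.coeff_cp_top (by omega)

theorem ty_coeff_cT (hS : Smo T c) (h : NZ y) (hO : T.On y) {i j : ℕ} (hn : i + j + c = adim io) :
    (cT B T y).coeff i ∈ B.ty K j j := by
  have := finrank_TY hS (.refl y) h hO
  rw [cT_eq hB (.refl _) h hO]
  exact hB.ty_coeff_cp (r := i + j) (by omega) rfl

variable [Algebra.EssFiniteType ℂ E]

theorem cT_red (hS : Smo T c) {p : LP K E} (h : Prim p.V y) (hO : T.On y) :
    (cT B T y).map (B.pb p : B.H K →+* B.H E) = cT B T (redP p.toPl y) := by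
  have hO' := on_red T p.lnr (fun j => (h j).1) hO
  obtain ⟨-, S, hS⟩ := hS
  rw [cT_eq hB (.refl _) h.nz hO, cT_eq hB (.refl _) h.nz_red hO', hB.cp_rd (val_da h h),
    res_da h h, ← Node22.TY_red p.lnr T (.refl _) h h hO
      ((hS K _ h.nz hO).1.trans (hS E _ h.nz_red hO').1.symm).le]
  rfl

omit [Algebra.EssFiniteType ℂ K] in
/-- where the points meet, the divisor of the diagonal is a root of the tangent bundle -/
theorem root {p : LP K E} (h : Prim p.V y) (h' : Prim p.V y') (hO : T.On y) (hO' : T.On y')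
    (h0 : wdg y y' ≠ 0) (h1 : wdg (redP p.toPl y) (redP p.toPl y') = 0) :
    (cT B T (redP p.toPl y)).eval (B.pb p (B.c1 (dh y y'))) = 0 := by
  rw [wdg_eq] at h0
  have hi : Itg p (dl y y') := Node22.wg_int (Node22.Prim.int h) (Node22.Prim.int h')
  have h2 := (rv_eq_zero (val_da h h') hi).1 ((rv_dl h h').trans h1)
  obtain ⟨g, hg⟩ := p.V.exists_v (nm (da y y') p.V (dl y y'))⁻¹
  have h3 : nm (da y y') p.V (g • dl y y') = 1 := by
    rw [nm_smul, hg, inv_mul_cancel₀ (nm_pos h0).ne']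
  have h4 := (itg_iff (val_da h h')).2 h3.le
  have h5 : rv p (g • dl y y') ≠ 0 := fun e => ((rv_eq_zero (val_da h h') h4).1 e).ne h3
  rw [dh_eq, map_neg, map_neg, pb_sz hB p (val_da h h') h3, ← map_neg, res_da h h', sz_eq_dst h5,
    cT_eq hB ((Node22.dl_eq_zero h.nz_red h'.nz_red).1 h1) h'.nz_red
      (on_red T p.lnr (fun j => (h j).1) hO)]
  exact hB.eval_cp_line (dir_mem h h' hO hO' (hg ▸ (one_lt_inv₀ (nm_pos h0)).2 h2) h4) h5

omit [Algebra.EssFiniteType ℂ E] in
theorem dgc_scl (h : NZ y) (h' : NZ y') (hO : T.On y) {g g' : J → K} (hg : ∀ j, g j ≠ 0)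
    (hg' : ∀ j, g' j ≠ 0) : dgc B T (scl g y) (scl g' y') = dgc B T y y' := by
  rw [dgc, dgc, cT_scl hB h hO hg, dh_scl h h' hg hg']
  by_cases h0 : wdg y y' = 0
  · rw [if_pos h0, if_pos ((wdg_scl hg hg').2 h0)]
  · rw [if_neg h0, if_neg (mt (wdg_scl hg hg').1 h0)]

theorem dgc_red (hS : Smo T c) {p : LP K E} (h : Prim p.V y) (h' : Prim p.V y') (hO : T.On y)
    (hO' : T.On y') : B.pb p (dgc B T y y') = dgc B T (redP p.toPl y) (redP p.toPl y') := by
  rw [dgc, dgc, map_sub, pb_eval, cT_red hB hS h hO, map_zero]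
  congr 1
  by_cases h0 : wdg y y' = 0
  · rw [if_pos h0, map_zero, if_pos]
    exact (rv_dl h h').symm.trans (by rw [← wdg_eq, h0, rv_zero])
  rw [if_neg h0, pb_eval, cT_red hB hS h hO]
  split_ifs with h1
  · exact root hB h h' hO hO' h0 h1
  · rw [pb_dh hB h h' h1]

omit [Algebra.EssFiniteType ℂ K] [Algebra.EssFiniteType ℂ E] in
/-- **the class of the diagonal is a class on the square of the target** -/
theorem dgcP (hS : Smo T c) : MCls B T (M := Fin 2) fun _ _ _ y => dgc B T (y 0) (y 1) :=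
  ⟨fun _ _ _ _ _ _ hg h hO => dgc_scl hB (h 0) (h 1) (hO 0) (hg 0) (hg 1),
    fun _ _ _ _ _ _ _ _ _ _ h hO => dgc_red hB hS (h 0) (h 1) (hO 0) (hO 1)⟩

omit [Algebra.EssFiniteType ℂ K] [Algebra.EssFiniteType ℂ E] in
/-- the coefficients of the Chern polynomial of the tangent bundle are classes on the target -/
theorem cls_cT (hS : Smo T c) (k : ℕ) : Cls B T fun _ _ _ y => (cT B T y).coeff k :=
  ⟨fun _ _ _ _ _ _ hg h hO => congrArg (Polynomial.coeff · k) (cT_scl hB h hO hg),
    fun _ _ _ _ _ _ _ _ _ _ h hO => by rw [← cT_red hB hS h hO, Polynomial.coeff_map]; rfl⟩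

end Crest.Agent.X262.Dgc64
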